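import Vale.Agent.P066.Lab.H99.HN5
import Vale.Agent.P066.Lab.HN3

/-!
# Standard triples of the particles, second part: input of `finrank_PA` and the equivalence
`Pt d₁ ⊕ (Pt d₀ ⊕ Pt d₂) ≃ Pt d`
-/

set_option autoImplicit false
set_option linter.unusedSectionVars false

open Finset MvPolynomial

namespace Vale.Agent.P066.Lab.H99

noncomputable section

variable {n : ℕ}

theorem comp_Pt (a : Fin n → Fin n → ℕ) (θ : Fin n → ℤ) (d : Fin n →₀ ℕ) :
    HN.Comp (aP a d) (θP θ d) (Sigma.fst : Pt d → Fin n) where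
  ha := by
    intro s t s' t' h1 h2
    unfold aP
    rw [h1, h2]
  hθ := by
    intro s s' h
    unfold θP
    rw [h]

/-- `finrank_PA` for the particles `Pt d`. -/
theorem finrank_Pt (k : Type) [Field k] [CharZero k] (a : Fin n → Fin n → ℕ) (θ : Fin n → ℤ)
    (d : Fin n →₀ ℕ) (m : ℕ) :
    Module.finrank k ↥(AltH k (Sigma.fst : Pt d → Fin n) m) =
      ∑ x ∈ (TT θ d).filter fun x =>
          arD a x.1.1 x.2.1 + arD a x.1.1 x.2.2 + arD a x.2.1 x.2.2 ≤ m,
        HN.hd k (HN.cE (Sigma.fst : Pt d → Fin n) (tau x))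
          (HN.II k (aP a d) (θP θ d) (tau x))
          (m - (arD a x.1.1 x.2.1 + arD a x.1.1 x.2.2 + arD a x.2.1 x.2.2)) := by
  classical
  have h := HN.finrank_PA (k := k) (comp_Pt a θ d) (ι := ↥(TT θ d)) (fun x => tau x.1)
    (fun x => tau_mem_Idx x.2) (by
      intro e he
      obtain ⟨x, hx, σ, hσ, h1, h2⟩ := exists_tau he
      exact ⟨⟨x, hx⟩, σ, (Theta.H422.mem_TP _ _).mpr hσ, Prod.ext h1 h2⟩) (by
      intro x y σ hσ hxy
      have h1 := congrArg Prod.fst hxy
      have h2 := congrArg Prod.snd hxy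
      exact Subtype.ext (tau_unique x.2 y.2 σ ((Theta.H422.mem_TP _ _).mp hσ) h1 h2)) m
  have h0 : Module.finrank k ↥(AltH k (Sigma.fst : Pt d → Fin n) m) =
    Module.finrank k ↥(HN.PA k (Sigma.fst : Pt d → Fin n) m) := rfl
  rw [h0, h]
  rw [Finset.sum_filter, Finset.sum_filter, ← Finset.sum_coe_sort (TT θ d)]
  refine Finset.sum_congr rfl fun x _ => ?_
  rw [dK_tau a x.2]

/-! ### The equivalence with the sum -/

/-- The map `Pt d₁ ⊕ (Pt d₀ ⊕ Pt d₂) → Pt d`. -/
def phiF {d d₁ d₀ d₂ : Fin n →₀ ℕ} (h : d₁ + (d₀ + d₂) = d) :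
    Pt d₁ ⊕ (Pt d₀ ⊕ Pt d₂) → Pt d :=
  Sum.elim (emb (fun _ => 0) (fun i => by rw [← h]; simp only [Finsupp.add_apply]; omega))
    (Sum.elim (emb (fun i => d₁ i) (fun i => by rw [← h]; simp only [Finsupp.add_apply]; omega))
      (emb (fun i => d₁ i + d₀ i) (fun i => by rw [← h]; simp only [Finsupp.add_apply]; omega)))

theorem phiF_bijective {d d₁ d₀ d₂ : Fin n →₀ ℕ} (h : d₁ + (d₀ + d₂) = d) :
    Function.Bijective (phiF h) := by
  have key : ∀ (d' : Fin n →₀ ℕ) (f : Fin n → ℕ) (hf : ∀ i, f i + d' i ≤ d i) (s : Pt d'),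
      ((emb f hf s).2 : ℕ) = f s.1 + s.2 := fun d' f hf s => rfl
  constructor
  · intro x y hxy
    have h1 : (phiF h x).1 = (phiF h y).1 := congrArg Sigma.fst hxy
    have h2 : ((phiF h x).2 : ℕ) = ((phiF h y).2 : ℕ) := by rw [hxy]
    rcases x with x | x | x <;> rcases y with y | y | y
    · exact congrArg _ (emb_injective (fun _ => 0)
        (fun i => by rw [← h]; simp only [Finsupp.add_apply]; omega) hxy)
    all_goals
      have b1 := x.2.2
      have b2 := y.2.2
      simp only [phiF, Sum.elim_inl, Sum.elim_inr, key, emb_fst] at h1 h2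
      have q1 : d₁ x.fst = d₁ y.fst := congrArg _ h1
      have q0 : d₀ x.fst = d₀ y.fst := congrArg _ h1
    · exfalso; omega
    · exfalso; omega
    · exfalso; omega
    · exact congrArg _ (congrArg _ (emb_injective (fun i => d₁ i)
        (fun i => by rw [← h]; simp only [Finsupp.add_apply]; omega) hxy))
    · exfalso; omega
    · exfalso; omega
    · exfalso; omega
    · exact congrArg _ (congrArg _ (emb_injective (fun i => d₁ i + d₀ i)
        (fun i => by rw [← h]; simp only [Finsupp.add_apply]; omega) hxy))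
  · intro s
    have hd : (s.2 : ℕ) < d₁ s.1 + (d₀ s.1 + d₂ s.1) := by
      have h3 := s.2.2
      have h4 := DFunLike.congr_fun h s.1
      simp only [Finsupp.add_apply] at h4
      omega
    by_cases h1 : (s.2 : ℕ) < d₁ s.1
    · obtain ⟨t, ht⟩ := (mem_range_emb (d' := d₁) (fun _ => 0)
        (fun i => by rw [← h]; simp only [Finsupp.add_apply]; omega) s).mpr ⟨by omega, by omega⟩
      exact ⟨Sum.inl t, ht⟩
    · by_cases h2 : (s.2 : ℕ) < d₁ s.1 + d₀ s.1
      · obtain ⟨t, ht⟩ := (mem_range_emb (d' := d₀) (fun i => d₁ i)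
          (fun i => by rw [← h]; simp only [Finsupp.add_apply]; omega) s).mpr
            ⟨by omega, by omega⟩
        exact ⟨Sum.inr (Sum.inl t), ht⟩
      · obtain ⟨t, ht⟩ := (mem_range_emb (d' := d₂) (fun i => d₁ i + d₀ i)
          (fun i => by rw [← h]; simp only [Finsupp.add_apply]; omega) s).mpr
            ⟨by omega, by omega⟩
        exact ⟨Sum.inr (Sum.inr t), ht⟩

/-- The equivalence `Pt d₁ ⊕ (Pt d₀ ⊕ Pt d₂) ≃ Pt d`. -/
def phi {d d₁ d₀ d₂ : Fin n →₀ ℕ} (h : d₁ + (d₀ + d₂) = d) :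
    Pt d₁ ⊕ (Pt d₀ ⊕ Pt d₂) ≃ Pt d := Equiv.ofBijective (phiF h) (phiF_bijective h)

theorem map_rename_map_rename (k : Type) [Field k] {A B C : Type} (f : A → B) (g : B → C)
    (J : Ideal (MvPolynomial A k)) :
    Ideal.map (rename g : MvPolynomial B k →ₐ[k] MvPolynomial C k)
      (Ideal.map (rename f : MvPolynomial A k →ₐ[k] MvPolynomial B k) J) =
      Ideal.map (rename (g ∘ f) : MvPolynomial A k →ₐ[k] MvPolynomial C k) J := by
  apply le_antisymm
  · rw [Ideal.map_le_iff_le_comap, Ideal.map_le_iff_le_comap]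
    intro x hx
    rw [Ideal.mem_comap, Ideal.mem_comap, rename_rename]
    exact Ideal.mem_map_of_mem _ hx
  · rw [Ideal.map_le_iff_le_comap]
    intro x hx
    rw [Ideal.mem_comap, ← rename_rename]
    exact Ideal.mem_map_of_mem _ (Ideal.mem_map_of_mem _ hx)

theorem image_emb {d d' : Fin n →₀ ℕ} (f : Fin n → ℕ) (h : ∀ i, f i + d' i ≤ d i)
    (s : Pt d) : s ∈ (univ : Finset (Pt d')).image (emb f h) ↔
      f s.1 ≤ s.2 ∧ (s.2 : ℕ) < f s.1 + d' s.1 := by
  rw [← mem_range_emb f h, Finset.mem_image]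
  simp

/-- The ideal of the standard pair in terms of the three blocks. -/
theorem II_std (k : Type) [Field k] (a : Fin n → Fin n → ℕ) (θ : Fin n → ℤ)
    {d d₁ d₀ d₂ : Fin n →₀ ℕ} (h : d₁ + (d₀ + d₂) = d) :
    HN.II k (aP a d) (θP θ d) (std d d₁ d₀) =
      Ideal.map (rename (phi h))
        (Ideal.map (rename Sum.inl) (Jp k (aP a d₁) (θP θ d₁) univ) ⊔
          Ideal.map (rename Sum.inr)
            (Ideal.map (rename Sum.inl) (J0 k (aP a d₀) (θP θ d₀) univ) ⊔
              Ideal.map (rename Sum.inr) (Jm k (aP a d₂) (θP θ d₂) univ))) := by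
  have hle1 : ∀ i, (fun _ : Fin n => 0) i + d₁ i ≤ d i := fun i => by
    rw [← h]; simp only [Finsupp.add_apply]; omega
  have hle0 : ∀ i, (fun i : Fin n => d₁ i) i + d₀ i ≤ d i := fun i => by
    rw [← h]; simp only [Finsupp.add_apply]; omega
  have hle2 : ∀ i, (fun i : Fin n => d₁ i + d₀ i) i + d₂ i ≤ d i := fun i => by
    rw [← h]; simp only [Finsupp.add_apply]; omega
  have e1 : (std d d₁ d₀).1 = univ.image (emb (fun _ => 0) hle1) := by
    ext s
    rw [image_emb, mem_std1]
    simp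
  have e0 : (std d d₁ d₀).2 \ (std d d₁ d₀).1 = univ.image (emb (fun i => d₁ i) hle0) := by
    ext s
    rw [image_emb, mem_sdiff, mem_std1, mem_std2]
    omega
  have e2 : (std d d₁ d₀).2ᶜ = univ.image (emb (fun i => d₁ i + d₀ i) hle2) := by
    ext s
    rw [image_emb, mem_compl, mem_std2]
    have h3 := s.2.2
    have h4 := DFunLike.congr_fun h s.1
    simp only [Finsupp.add_apply] at h4
    omega
  unfold HN.II
  rw [e0, e1, e2, ← map_Jp k (a' := aP a d₁) (θ' := θP θ d₁) (emb_injective _ _) (fun _ _ => rfl)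
      (fun _ => rfl), ← map_J0 k (a' := aP a d₀) (θ' := θP θ d₀) (emb_injective _ _)
      (fun _ _ => rfl) (fun _ => rfl), ← map_Jm k (a' := aP a d₂) (θ' := θP θ d₂)
      (emb_injective _ _) (fun _ _ => rfl) (fun _ => rfl)]
  rw [Ideal.map_sup, Ideal.map_sup, Ideal.map_sup, map_rename_map_rename, map_rename_map_rename,
    map_rename_map_rename, map_rename_map_rename, map_rename_map_rename, sup_assoc]
  rfl

/-- The Hilbert function of the standard pair in terms of the three blocks. -/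
theorem hd_std (k : Type) [Field k] (a : Fin n → Fin n → ℕ) (θ : Fin n → ℤ)
    {d d₁ d₀ d₂ : Fin n →₀ ℕ} (h : d₁ + (d₀ + d₂) = d) (m : ℕ) :
    HN.hd k (HN.cE (Sigma.fst : Pt d → Fin n) (std d d₁ d₀))
      (HN.II k (aP a d) (θP θ d) (std d d₁ d₀)) m =
      hQ k (Sum.map (Sigma.fst : Pt d₁ → Fin n)
          (Sum.map (Sigma.fst : Pt d₀ → Fin n) (Sigma.fst : Pt d₂ → Fin n)))
        (Ideal.map (rename Sum.inl) (Jp k (aP a d₁) (θP θ d₁) univ) ⊔
          Ideal.map (rename Sum.inr)
            (Ideal.map (rename Sum.inl) (J0 k (aP a d₀) (θP θ d₀) univ) ⊔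
              Ideal.map (rename Sum.inr) (Jm k (aP a d₂) (θP θ d₂) univ))) m := by
  rw [II_std k a θ h]
  have h0 := hQ_equiv k (phi h) (HN.cE (Sigma.fst : Pt d → Fin n) (std d d₁ d₀))
    (Sum.map (Sigma.fst : Pt d₁ → Fin n)
          (Sum.map (Sigma.fst : Pt d₀ → Fin n) (Sigma.fst : Pt d₂ → Fin n))) (by
      have g1 : ∀ s : Pt d₁, HN.cE (Sigma.fst : Pt d → Fin n) (std d d₁ d₀) (phi h (Sum.inl s)) =
          (s.1, true, true) := by
        intro s
        have h3 := s.2.2
        have h4 : ((phi h (Sum.inl s)).2 : ℕ) = 0 + s.2 := rfl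
        have h5 : (phi h (Sum.inl s)).1 = s.1 := rfl
        unfold HN.cE
        refine Prod.ext h5 (Prod.ext ?_ ?_)
        · simp only [decide_eq_true_eq]
          rw [mem_std1, h4, h5]
          omega
        · simp only [decide_eq_true_eq]
          rw [mem_std2, h4, h5]
          omega
      have g0 : ∀ s : Pt d₀, HN.cE (Sigma.fst : Pt d → Fin n) (std d d₁ d₀)
          (phi h (Sum.inr (Sum.inl s))) = (s.1, false, true) := by
        intro s
        have h3 := s.2.2
        have h4 : ((phi h (Sum.inr (Sum.inl s))).2 : ℕ) = d₁ s.1 + s.2 := rfl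
        have h5 : (phi h (Sum.inr (Sum.inl s))).1 = s.1 := rfl
        unfold HN.cE
        refine Prod.ext h5 (Prod.ext ?_ ?_)
        · simp only [decide_eq_false_iff_not]
          rw [mem_std1, h4, h5]
          omega
        · simp only [decide_eq_true_eq]
          rw [mem_std2, h4, h5]
          omega
      have g2 : ∀ s : Pt d₂, HN.cE (Sigma.fst : Pt d → Fin n) (std d d₁ d₀)
          (phi h (Sum.inr (Sum.inr s))) = (s.1, false, false) := by
        intro s
        have h3 := s.2.2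
        have h4 : ((phi h (Sum.inr (Sum.inr s))).2 : ℕ) = d₁ s.1 + d₀ s.1 + s.2 := rfl
        have h5 : (phi h (Sum.inr (Sum.inr s))).1 = s.1 := rfl
        unfold HN.cE
        refine Prod.ext h5 (Prod.ext ?_ ?_)
        · simp only [decide_eq_false_iff_not]
          rw [mem_std1, h4, h5]
          omega
        · simp only [decide_eq_false_iff_not]
          rw [mem_std2, h4, h5]
          omega
      intro s t
      rcases s with s | s | s <;> rcases t with t | t | t <;>
        simp [g1, g0, g2]) (Ideal.map (rename Sum.inl) (Jp k (aP a d₁) (θP θ d₁) univ) ⊔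
          Ideal.map (rename Sum.inr)
            (Ideal.map (rename Sum.inl) (J0 k (aP a d₀) (θP θ d₀) univ) ⊔
              Ideal.map (rename Sum.inr) (Jm k (aP a d₂) (θP θ d₂) univ))) m
  exact h0

end

end Vale.Agent.P066.Lab.H99
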