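import Vale.Agent.P066.Lab.QT0
import Vale.Agent.P066.Lab.HN2
import Vale.Agent.P066.Lab.EQ

/-!
# Standard triples of the particles `Pt d` (HN5)

For `d = d₁ + d₀ + d₂` the standard pair `E₁ ⊆ E₂` consists of the first `d₁ i`, resp.
`d₁ i + d₀ i` particles of each type `i`.  Every pair is conjugate under the type preserving
permutations to exactly one standard pair.
-/

set_option autoImplicit false
set_option linter.unusedSectionVars false

open Finset MvPolynomial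

namespace Vale.Agent.P066.Lab.H99

noncomputable section

/-- Functions with the same fibre cardinalities differ by a permutation. -/
theorem exists_perm_of_card_fiber {X Y : Type} [Fintype X] [DecidableEq Y] (f g : X → Y)
    (h : ∀ y, (univ.filter fun x => f x = y).card = (univ.filter fun x => g x = y).card) :
    ∃ σ : Equiv.Perm X, ∀ x, g (σ x) = f x := by
  classical
  have h1 : ∀ y, Nonempty ({x // f x = y} ≃ {x // g x = y}) := by
    intro y
    rw [← Fintype.card_eq, Fintype.card_subtype, Fintype.card_subtype]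
    exact h y
  have e : ∀ y, {x // f x = y} ≃ {x // g x = y} := fun y => (h1 y).some
  refine ⟨(Equiv.sigmaFiberEquiv f).symm.trans
    ((Equiv.sigmaCongrRight e).trans (Equiv.sigmaFiberEquiv g)), ?_⟩
  intro x
  have : ((Equiv.sigmaFiberEquiv f).symm.trans
    ((Equiv.sigmaCongrRight e).trans (Equiv.sigmaFiberEquiv g))) x =
      (e (f x) ⟨x, rfl⟩ : {x' // g x' = f x}).1 := rfl
  rw [this]
  exact (e (f x) ⟨x, rfl⟩).2

variable {n : ℕ}

/-- the index set of the triples `d = d₁ + (d₀ + d₂)`, `θ d₀ = 0` -/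
def TT (θ : Fin n → ℤ) (d : Fin n →₀ ℕ) :
    Finset (Σ _ : (Fin n →₀ ℕ) × (Fin n →₀ ℕ), (Fin n →₀ ℕ) × (Fin n →₀ ℕ)) :=
  (antidiagonal d).sigma fun p => (antidiagonal p.2).filter fun p' => Theta.wt θ p'.1 = 0

theorem mem_TT {θ : Fin n → ℤ} {d : Fin n →₀ ℕ}
    {x : Σ _ : (Fin n →₀ ℕ) × (Fin n →₀ ℕ), (Fin n →₀ ℕ) × (Fin n →₀ ℕ)} :
    x ∈ TT θ d ↔ x.1.1 + x.1.2 = d ∧ x.2.1 + x.2.2 = x.1.2 ∧ Theta.wt θ x.2.1 = 0 := by
  unfold TT
  rw [mem_sigma, HasAntidiagonal.mem_antidiagonal, mem_filter, HasAntidiagonal.mem_antidiagonal]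

/-- the part (0, 1, 2) of a particle in a pair `E₁ ⊆ E₂` -/
def prt {S : Type} [DecidableEq S] (e : Finset S × Finset S) (s : S) : Fin 3 :=
  if s ∈ e.1 then 0 else if s ∈ e.2 then 1 else 2

/-- the standard pair -/
def std (d d₁ d₀ : Fin n →₀ ℕ) : Finset (Pt d) × Finset (Pt d) :=
  (univ.filter fun s => (s.2 : ℕ) < d₁ s.1, univ.filter fun s => (s.2 : ℕ) < d₁ s.1 + d₀ s.1)

theorem mem_std1 {d d₁ d₀ : Fin n →₀ ℕ} {s : Pt d} : s ∈ (std d d₁ d₀).1 ↔ (s.2 : ℕ) < d₁ s.1 := by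
  simp [std]

theorem mem_std2 {d d₁ d₀ : Fin n →₀ ℕ} {s : Pt d} :
    s ∈ (std d d₁ d₀).2 ↔ (s.2 : ℕ) < d₁ s.1 + d₀ s.1 := by
  simp [std]

theorem std_subset (d d₁ d₀ : Fin n →₀ ℕ) : (std d d₁ d₀).1 ⊆ (std d d₁ d₀).2 := by
  intro s hs
  rw [mem_std1] at hs
  rw [mem_std2]
  omega

/-- number of particles of type `i` in a set -/
def cnt {d : Fin n →₀ ℕ} (E : Finset (Pt d)) (i : Fin n) : ℕ := (E.filter fun s => s.1 = i).card

theorem cnt_sdiff {d : Fin n →₀ ℕ} {A B : Finset (Pt d)} (h : B ⊆ A) (i : Fin n) :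
    cnt (A \ B) i + cnt B i = cnt A i := by
  unfold cnt
  rw [← Finset.card_union_of_disjoint]
  · congr 1
    ext s
    simp only [mem_union, mem_filter, mem_sdiff]
    constructor
    · rintro (⟨⟨h1, _⟩, h2⟩ | ⟨h1, h2⟩)
      · exact ⟨h1, h2⟩
      · exact ⟨h h1, h2⟩
    · rintro ⟨h1, h2⟩
      by_cases h3 : s ∈ B
      · exact Or.inr ⟨h3, h2⟩
      · exact Or.inl ⟨⟨h1, h3⟩, h2⟩
  · rw [Finset.disjoint_left]
    intro s h1 h2
    exact (mem_sdiff.mp (mem_filter.mp h1).1).2 (mem_filter.mp h2).1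

theorem cnt_lt {d : Fin n →₀ ℕ} (b : Fin n → ℕ) (i : Fin n) :
    cnt (univ.filter fun s : Pt d => (s.2 : ℕ) < b s.1) i = min (d i) (b i) := by
  classical
  unfold cnt
  rw [← Fin.card_filter_val_lt]
  symm
  refine Finset.card_bij (fun (x : Fin (d i)) _ => (⟨i, x⟩ : Pt d)) ?_ ?_ ?_
  · intro x hx
    simp only [mem_filter, mem_univ, true_and] at hx ⊢
    exact ⟨hx, trivial⟩
  · intro x _ y _ h
    simpa using h
  · rintro ⟨j, x⟩ hx
    simp only [mem_filter, mem_univ, true_and] at hx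
    obtain ⟨hx, rfl⟩ := hx
    exact ⟨x, by simpa using hx, rfl⟩

theorem cnt_univ (d : Fin n →₀ ℕ) (i : Fin n) : cnt (univ : Finset (Pt d)) i = d i := by
  have h := cnt_lt (d := d) (fun i => d i) i
  rw [min_self] at h
  rw [← h]
  congr 1
  ext s
  simp

theorem cnt_compl {d : Fin n →₀ ℕ} (A : Finset (Pt d)) (i : Fin n) :
    cnt Aᶜ i + cnt A i = d i := by
  rw [← cnt_univ d i, Finset.compl_eq_univ_sdiff]
  exact cnt_sdiff (subset_univ _) i

theorem cnt_image {d : Fin n →₀ ℕ} (σ : Equiv.Perm (Pt d)) (hσ : ∀ s, (σ s).1 = s.1)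
    (A : Finset (Pt d)) (i : Fin n) : cnt (A.image σ) i = cnt A i := by
  unfold cnt
  rw [Finset.filter_image, Finset.card_image_of_injective _ σ.injective]
  congr 1
  apply Finset.filter_congr
  intro s _
  rw [hσ]

/-- Pairs with the same contents are conjugate. -/
theorem exists_conj {d : Fin n →₀ ℕ} {e e' : Finset (Pt d) × Finset (Pt d)} (he : e.1 ⊆ e.2)
    (he' : e'.1 ⊆ e'.2) (h1 : ∀ i, cnt e.1 i = cnt e'.1 i) (h2 : ∀ i, cnt e.2 i = cnt e'.2 i) :
    ∃ σ : Equiv.Perm (Pt d), (∀ s, (σ s).1 = s.1) ∧ e.1.image σ = e'.1 ∧ e.2.image σ = e'.2 := by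
  classical
  have hf : ∀ (e : Finset (Pt d) × Finset (Pt d)) (_ : e.1 ⊆ e.2) (i : Fin n) (j : Fin 3),
      (univ.filter fun s : Pt d => (s.1, prt e s) = (i, j)).card =
        if j = 0 then cnt e.1 i else if j = 1 then cnt (e.2 \ e.1) i else cnt e.2ᶜ i := by
    intro e he i j
    unfold cnt
    fin_cases j
    · simp only [Fin.zero_eta, if_true]
      congr 1
      ext s
      simp only [mem_filter, mem_univ, true_and, Prod.mk.injEq, prt]
      by_cases hs1 : s ∈ e.1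
      · simp [hs1]
      · by_cases hs2 : s ∈ e.2 <;> simp [hs1, hs2]
    · simp only [Fin.mk_one, one_ne_zero, if_false, if_true]
      congr 1
      ext s
      simp only [mem_filter, mem_univ, true_and, Prod.mk.injEq, prt, mem_sdiff]
      by_cases hs1 : s ∈ e.1
      · simp [hs1]
      · by_cases hs2 : s ∈ e.2 <;> simp [hs1, hs2]
    · simp only [Fin.reduceFinMk, Fin.reduceEq, if_false]
      congr 1
      ext s
      simp only [mem_filter, mem_univ, true_and, Prod.mk.injEq, prt, mem_compl]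
      by_cases hs1 : s ∈ e.1
      · simp [hs1, he hs1]
      · by_cases hs2 : s ∈ e.2 <;> simp [hs1, hs2]
  obtain ⟨σ, hσ⟩ := exists_perm_of_card_fiber (fun s : Pt d => (s.1, prt e s))
    (fun s : Pt d => (s.1, prt e' s)) (by
      rintro ⟨i, j⟩
      rw [hf e he, hf e' he']
      have h3 := cnt_sdiff he i
      have h3' := cnt_sdiff he' i
      have h4 := cnt_compl e.2 i
      have h4' := cnt_compl e'.2 i
      have h5 := h1 i
      have h6 := h2 i
      split_ifs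
      · exact h5
      · omega
      · omega)
  have hp : ∀ (e : Finset (Pt d) × Finset (Pt d)) (_ : e.1 ⊆ e.2) (s : Pt d),
      (s ∈ e.1 ↔ prt e s = 0) ∧ (s ∈ e.2 ↔ prt e s ≠ 2) := by
    intro e he s
    unfold prt
    by_cases hs1 : s ∈ e.1
    · simp [hs1, he hs1]
    · by_cases hs2 : s ∈ e.2 <;> simp [hs1, hs2]
  refine ⟨σ, fun s => (Prod.ext_iff.mp (hσ s)).1, ?_, ?_⟩
  · ext s
    rw [mem_image]
    constructor
    · rintro ⟨t, ht, rfl⟩
      rw [(hp e' he' _).1]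
      have := (Prod.ext_iff.mp (hσ t)).2
      simp only at this
      rw [this, ← (hp e he t).1]
      exact ht
    · intro hs
      refine ⟨σ.symm s, ?_, by simp⟩
      have := (Prod.ext_iff.mp (hσ (σ.symm s))).2
      simp only [Equiv.apply_symm_apply] at this
      rw [(hp e he _).1, ← this, ← (hp e' he' s).1]
      exact hs
  · ext s
    rw [mem_image]
    constructor
    · rintro ⟨t, ht, rfl⟩
      rw [(hp e' he' _).2]
      have := (Prod.ext_iff.mp (hσ t)).2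
      simp only at this
      rw [this, ← (hp e he t).2]
      exact ht
    · intro hs
      refine ⟨σ.symm s, ?_, by simp⟩
      have := (Prod.ext_iff.mp (hσ (σ.symm s))).2
      simp only [Equiv.apply_symm_apply] at this
      rw [(hp e he _).2, ← this, ← (hp e' he' s).2]
      exact hs

/-! ### Contents and weights -/

theorem cnt_std1 {d d₁ d₀ d₂ : Fin n →₀ ℕ} (h : d₁ + (d₀ + d₂) = d) (i : Fin n) :
    cnt (std d d₁ d₀).1 i = d₁ i := by
  unfold std
  rw [cnt_lt (fun i => d₁ i)]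
  have := DFunLike.congr_fun h i
  simp only [Finsupp.add_apply] at this
  omega

theorem cnt_std2 {d d₁ d₀ d₂ : Fin n →₀ ℕ} (h : d₁ + (d₀ + d₂) = d) (i : Fin n) :
    cnt (std d d₁ d₀).2 i = d₁ i + d₀ i := by
  unfold std
  rw [cnt_lt (fun i => d₁ i + d₀ i)]
  have := DFunLike.congr_fun h i
  simp only [Finsupp.add_apply] at this
  omega

theorem cnt_std0 {d d₁ d₀ d₂ : Fin n →₀ ℕ} (h : d₁ + (d₀ + d₂) = d) (i : Fin n) :
    cnt ((std d d₁ d₀).2 \ (std d d₁ d₀).1) i = d₀ i := by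
  have h1 := cnt_sdiff (std_subset d d₁ d₀) i
  rw [cnt_std1 h, cnt_std2 h] at h1
  omega

theorem cnt_std3 {d d₁ d₀ d₂ : Fin n →₀ ℕ} (h : d₁ + (d₀ + d₂) = d) (i : Fin n) :
    cnt (std d d₁ d₀).2ᶜ i = d₂ i := by
  have h1 := cnt_compl (std d d₁ d₀).2 i
  rw [cnt_std2 h] at h1
  have := DFunLike.congr_fun h i
  simp only [Finsupp.add_apply] at this
  omega

/-- sums over particles of functions of the type -/
theorem sum_eq_cnt {M : Type} [CommSemiring M] {d : Fin n →₀ ℕ} (E : Finset (Pt d))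
    (f : Fin n → M) : ∑ s ∈ E, f s.1 = ∑ i, (cnt E i : M) * f i := by
  classical
  rw [← Finset.sum_fiberwise_of_maps_to (s := E) (t := univ) (g := fun s => s.1)
    (fun s _ => mem_univ _)]
  refine Finset.sum_congr rfl fun i _ => ?_
  unfold cnt
  rw [Finset.sum_congr rfl (g := fun _ => f i) (fun s hs => by rw [(mem_filter.mp hs).2]),
    Finset.sum_const, nsmul_eq_mul]

theorem wS_eq_cnt (θ : Fin n → ℤ) {d : Fin n →₀ ℕ} (E : Finset (Pt d)) :
    wS (θP θ d) E = ∑ i, (cnt E i : ℤ) * θ i := sum_eq_cnt E θ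

theorem sum_a_eq_cnt (a : Fin n → Fin n → ℕ) {d : Fin n →₀ ℕ} (E F : Finset (Pt d)) :
    ∑ p ∈ E ×ˢ F, aP a d p.1 p.2 = ∑ i, ∑ j, cnt E i * a i j * cnt F j := by
  rw [Finset.sum_product]
  have h1 : ∀ s : Pt d, ∑ t ∈ F, aP a d s t = ∑ j, cnt F j * a s.1 j := by
    intro s
    exact sum_eq_cnt F (fun j => a s.1 j)
  rw [Finset.sum_congr rfl fun s _ => h1 s,
    sum_eq_cnt (M := ℕ) E (fun i => ∑ j, cnt F j * a i j)]
  refine Finset.sum_congr rfl fun i _ => ?_
  rw [Finset.mul_sum]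
  refine Finset.sum_congr rfl fun j _ => ?_
  simp only [Nat.cast_id]
  ring

theorem cnt_compl_std1 {d d₁ d₀ d₂ : Fin n →₀ ℕ} (h : d₁ + (d₀ + d₂) = d) (i : Fin n) :
    cnt (std d d₁ d₀).1ᶜ i = d₀ i + d₂ i := by
  have h1 := cnt_compl (std d d₁ d₀).1 i
  rw [cnt_std1 h] at h1
  have := DFunLike.congr_fun h i
  simp only [Finsupp.add_apply] at this
  omega

theorem dK_std (a : Fin n → Fin n → ℕ) {d d₁ d₀ d₂ : Fin n →₀ ℕ} (h : d₁ + (d₀ + d₂) = d) :
    HN.dK (aP a d) (std d d₁ d₀) = arD a d₁ d₀ + arD a d₁ d₂ + arD a d₀ d₂ := by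
  unfold HN.dK arD
  rw [sum_a_eq_cnt, sum_a_eq_cnt]
  congr 1
  · rw [← Finset.sum_add_distrib]
    refine Finset.sum_congr rfl fun i _ => ?_
    rw [← Finset.sum_add_distrib]
    refine Finset.sum_congr rfl fun j _ => ?_
    rw [cnt_std1 h, cnt_compl_std1 h]
    ring
  · refine Finset.sum_congr rfl fun i _ => Finset.sum_congr rfl fun j _ => ?_
    rw [cnt_std0 h, cnt_std3 h]

theorem wS_std0 (θ : Fin n → ℤ) {d d₁ d₀ d₂ : Fin n →₀ ℕ} (h : d₁ + (d₀ + d₂) = d) :
    wS (θP θ d) ((std d d₁ d₀).2 \ (std d d₁ d₀).1) = Theta.wt θ d₀ := by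
  rw [wS_eq_cnt]
  unfold Theta.wt
  refine Finset.sum_congr rfl fun i _ => ?_
  rw [cnt_std0 h, mul_comm]

/-! ### Every pair is conjugate to exactly one standard pair -/

/-- the standard pair of an index -/
def tau {d : Fin n →₀ ℕ}
    (x : Σ _ : (Fin n →₀ ℕ) × (Fin n →₀ ℕ), (Fin n →₀ ℕ) × (Fin n →₀ ℕ)) :
    Finset (Pt d) × Finset (Pt d) := std d x.1.1 x.2.1

theorem tau_mem_Idx {θ : Fin n → ℤ} {d : Fin n →₀ ℕ}
    {x : Σ _ : (Fin n →₀ ℕ) × (Fin n →₀ ℕ), (Fin n →₀ ℕ) × (Fin n →₀ ℕ)} (hx : x ∈ TT θ d) :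
    (tau x : Finset (Pt d) × Finset (Pt d)) ∈ HN.Idx (θP θ d) := by
  rw [mem_TT] at hx
  obtain ⟨h1, h2, h3⟩ := hx
  rw [HN.mem_Idx]
  refine ⟨std_subset _ _ _, ?_⟩
  rw [← h2] at h1
  unfold tau
  rw [wS_std0 θ h1, h3]

theorem exists_tau {θ : Fin n → ℤ} {d : Fin n →₀ ℕ} {e : Finset (Pt d) × Finset (Pt d)}
    (he : e ∈ HN.Idx (θP θ d)) :
    ∃ x ∈ TT θ d, ∃ σ : Equiv.Perm (Pt d), (∀ s, (σ s).1 = s.1) ∧
      (tau x : Finset (Pt d) × Finset (Pt d)).1.image σ = e.1 ∧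
      (tau x : Finset (Pt d) × Finset (Pt d)).2.image σ = e.2 := by
  rw [HN.mem_Idx] at he
  obtain ⟨he, hw⟩ := he
  let d₁ : Fin n →₀ ℕ := Finsupp.equivFunOnFinite.symm (cnt e.1)
  let d₀ : Fin n →₀ ℕ := Finsupp.equivFunOnFinite.symm (cnt (e.2 \ e.1))
  let d₂ : Fin n →₀ ℕ := Finsupp.equivFunOnFinite.symm (cnt e.2ᶜ)
  have hd : d₁ + (d₀ + d₂) = d := by
    ext i
    simp only [Finsupp.add_apply, d₁, d₀, d₂, Finsupp.equivFunOnFinite_symm_apply_apply]
    have h1 := cnt_sdiff he i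
    have h2 := cnt_compl e.2 i
    omega
  refine ⟨⟨(d₁, d₀ + d₂), (d₀, d₂)⟩, ?_, ?_⟩
  · rw [mem_TT]
    refine ⟨hd, rfl, ?_⟩
    rw [wS_eq_cnt] at hw
    rw [← hw]
    unfold Theta.wt
    refine Finset.sum_congr rfl fun i _ => ?_
    simp [d₀]
  · refine exists_conj (std_subset _ _ _) he ?_ ?_
    · intro i
      unfold tau
      rw [cnt_std1 hd]
      simp [d₁]
    · intro i
      unfold tau
      rw [cnt_std2 hd]
      have h1 := cnt_sdiff he i
      simp only [d₁, d₀, Finsupp.equivFunOnFinite_symm_apply_apply]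
      omega

theorem tau_unique {θ : Fin n → ℤ} {d : Fin n →₀ ℕ}
    {x y : Σ _ : (Fin n →₀ ℕ) × (Fin n →₀ ℕ), (Fin n →₀ ℕ) × (Fin n →₀ ℕ)}
    (hx : x ∈ TT θ d) (hy : y ∈ TT θ d) (σ : Equiv.Perm (Pt d)) (hσ : ∀ s, (σ s).1 = s.1)
    (h1 : (tau x : Finset (Pt d) × Finset (Pt d)).1.image σ =
      (tau y : Finset (Pt d) × Finset (Pt d)).1)
    (h2 : (tau x : Finset (Pt d) × Finset (Pt d)).2.image σ =
      (tau y : Finset (Pt d) × Finset (Pt d)).2) : x = y := by
  rw [mem_TT] at hx hy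
  obtain ⟨hx1, hx2, -⟩ := hx
  obtain ⟨hy1, hy2, -⟩ := hy
  rw [← hx2] at hx1
  rw [← hy2] at hy1
  have e1 : x.1.1 = y.1.1 := by
    ext i
    have := cnt_image σ hσ (tau x : Finset (Pt d) × Finset (Pt d)).1 i
    rw [h1] at this
    unfold tau at this
    rw [cnt_std1 hx1, cnt_std1 hy1] at this
    exact this.symm
  have e2 : x.2.1 = y.2.1 := by
    ext i
    have := cnt_image σ hσ (tau x : Finset (Pt d) × Finset (Pt d)).2 i
    rw [h2] at this
    unfold tau at this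
    rw [cnt_std2 hx1, cnt_std2 hy1, e1] at this
    omega
  have e3 : x.2.2 = y.2.2 := by
    have := hx1.trans hy1.symm
    rw [e1, e2] at this
    exact add_left_cancel (add_left_cancel this)
  have e4 : x.1.2 = y.1.2 := by rw [← hx2, ← hy2, e2, e3]
  obtain ⟨⟨x1, x2⟩, ⟨x3, x4⟩⟩ := x
  obtain ⟨⟨y1, y2⟩, ⟨y3, y4⟩⟩ := y
  simp only at e1 e2 e3 e4
  subst e1 e2 e3 e4
  rfl

theorem dK_tau (a : Fin n → Fin n → ℕ) {θ : Fin n → ℤ} {d : Fin n →₀ ℕ}
    {x : Σ _ : (Fin n →₀ ℕ) × (Fin n →₀ ℕ), (Fin n →₀ ℕ) × (Fin n →₀ ℕ)} (hx : x ∈ TT θ d) :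
    HN.dK (aP a d) (tau x : Finset (Pt d) × Finset (Pt d)) =
      arD a x.1.1 x.2.1 + arD a x.1.1 x.2.2 + arD a x.2.1 x.2.2 := by
  rw [mem_TT] at hx
  obtain ⟨h1, h2, -⟩ := hx
  rw [← h2] at h1
  exact dK_std a h1

/-! ### The standard embeddings -/

/-- the particles of `d'` placed in `Pt d` from the positions `f i` on -/
def emb {d d' : Fin n →₀ ℕ} (f : Fin n → ℕ) (h : ∀ i, f i + d' i ≤ d i) (s : Pt d') : Pt d :=
  ⟨s.1, ⟨f s.1 + s.2, by have := h s.1; have := s.2.2; omega⟩⟩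

theorem emb_injective {d d' : Fin n →₀ ℕ} (f : Fin n → ℕ) (h : ∀ i, f i + d' i ≤ d i) :
    Function.Injective (emb f h) := by
  rintro ⟨i, x⟩ ⟨j, y⟩ hxy
  unfold emb at hxy
  obtain ⟨rfl, h2⟩ := Sigma.mk.inj_iff.mp hxy
  have h3 := Fin.mk.inj_iff.mp (eq_of_heq h2)
  have : x = y := Fin.ext (by simpa using h3)
  rw [this]

theorem emb_fst {d d' : Fin n →₀ ℕ} (f : Fin n → ℕ) (h : ∀ i, f i + d' i ≤ d i) (s : Pt d') :
    (emb f h s).1 = s.1 := rfl

theorem mem_range_emb {d d' : Fin n →₀ ℕ} (f : Fin n → ℕ) (h : ∀ i, f i + d' i ≤ d i)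
    (s : Pt d) : (∃ t, emb f h t = s) ↔ f s.1 ≤ s.2 ∧ (s.2 : ℕ) < f s.1 + d' s.1 := by
  constructor
  · rintro ⟨t, rfl⟩
    unfold emb
    simp only
    have := t.2.2
    omega
  · intro hs
    refine ⟨⟨s.1, ⟨s.2 - f s.1, by omega⟩⟩, ?_⟩
    unfold emb
    refine Sigma.ext rfl (heq_of_eq ?_)
    apply Fin.ext
    simp only
    omega

section Transport

variable (k : Type) [Field k]

theorem Alt_rename {S S' : Type} [Fintype S] [DecidableEq S] [Fintype S'] [DecidableEq S']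
    (e : S' ≃ S) {ι ι' : Type} [Fintype ι] [DecidableEq ι] [Fintype ι'] [DecidableEq ι']
    (c : S → ι) (c' : S' → ι') (hc : ∀ s t, c' s = c' t ↔ c (e s) = c (e t))
    (f : MvPolynomial S' k) :
    rename e f ∈ Theta.H422.Alt k c ↔ f ∈ Theta.H422.Alt k c' := by
  rw [Theta.H422.mem_Alt, Theta.H422.mem_Alt]
  constructor
  · intro h σ hσ
    have h1 := h ((e.symm.trans σ).trans e) (by
      intro s
      have := (hc (σ (e.symm s)) (e.symm s)).mp (hσ _)
      simpa using this)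
    rw [rename_rename] at h1
    have h2 : (⇑((e.symm.trans σ).trans e) ∘ ⇑e) = ⇑e ∘ ⇑σ := by
      ext s; simp
    rw [h2, ← rename_rename, Equiv.Perm.sign_symm_trans_trans, ← map_smul] at h1
    exact rename_injective _ e.injective h1
  · intro h σ hσ
    have h1 := h ((e.trans σ).trans e.symm) (by
      intro s
      rw [hc]
      simpa using hσ (e s))
    rw [Equiv.Perm.sign_trans_trans_symm] at h1
    rw [← map_smul, ← h1, rename_rename, rename_rename]
    congr 2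
    ext s
    simp

theorem hQ_equiv {S S' : Type} [Fintype S] [DecidableEq S] [Fintype S'] [DecidableEq S']
    (e : S' ≃ S) {ι ι' : Type} [Fintype ι] [DecidableEq ι] [Fintype ι'] [DecidableEq ι']
    (c : S → ι) (c' : S' → ι') (hc : ∀ s t, c' s = c' t ↔ c (e s) = c (e t))
    (J' : Ideal (MvPolynomial S' k)) (m : ℕ) :
    hQ k c (J'.map (rename e)) m = hQ k c' J' m := by
  unfold hQ
  let L : MvPolynomial S' k ≃ₗ[k] MvPolynomial S k := (renameEquiv k e).toLinearEquiv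
  have hL : ∀ f, L f = rename e f := fun f => rfl
  have hJ : (J'.restrictScalars k).map (L : MvPolynomial S' k →ₗ[k] MvPolynomial S k) =
      (J'.map (rename e)).restrictScalars k := by
    ext f
    rw [Submodule.mem_map, Submodule.restrictScalars_mem]
    constructor
    · rintro ⟨g, hg, rfl⟩
      exact Ideal.mem_map_of_mem _ hg
    · intro hf
      refine ⟨L.symm f, ?_, L.apply_symm_apply f⟩
      rw [Submodule.restrictScalars_mem]
      apply mem_of_rename_mem_map k e.injective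
      have : rename e (L.symm f) = f := L.apply_symm_apply f
      rw [this]
      exact hf
  have hA : (AltH k c' m).map (L : MvPolynomial S' k →ₗ[k] MvPolynomial S k) = AltH k c m := by
    ext f
    rw [Submodule.mem_map]
    constructor
    · rintro ⟨g, hg, rfl⟩
      refine ⟨(Alt_rename k e c c' hc g).mpr hg.1, ?_⟩
      have h2 : g.IsHomogeneous m := hg.2
      exact h2.rename_isHomogeneous
    · intro hf
      have h0 : rename e (L.symm f) = f := L.apply_symm_apply f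
      refine ⟨L.symm f, ⟨?_, ?_⟩, h0⟩
      · rw [← h0] at hf
        exact (Alt_rename k e c c' hc _).mp hf.1
      · have h2 : f.IsHomogeneous m := hf.2
        rw [← h0] at h2
        exact (IsHomogeneous.rename_isHomogeneous_iff e.injective).mp h2
  let Q := Submodule.Quotient.equiv (J'.restrictScalars k) ((J'.map (rename e)).restrictScalars k)
    L hJ
  have hQ : ((AltH k c' m).map (J'.restrictScalars k).mkQ).map
      (Q : (MvPolynomial S' k ⧸ J'.restrictScalars k) →ₗ[k]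
        (MvPolynomial S k ⧸ (J'.map (rename e)).restrictScalars k)) =
      (AltH k c m).map ((J'.map (rename e)).restrictScalars k).mkQ := by
    rw [← Submodule.map_comp, ← hA, ← Submodule.map_comp]
    rfl
  rw [← hQ]
  exact LinearEquiv.finrank_map_eq Q _

end Transport

end

end Vale.Agent.P066.Lab.H99
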