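import Vale.Agent.P066.Lab.H99.HN5b
import Vale.Agent.P066.Lab.H180.HN4

/-!
# The Harder-Narasimhan identity `LAout`
-/

set_option autoImplicit false

open Finset MvPolynomial

namespace Vale.Agent.P066.Lab

noncomputable section

/-- Labelled Harder-Narasimhan theorem, numerical form. -/
theorem laout : LAout := by
  classical
  intro n a θ d
  ext m
  rw [PowerSeries.coeff_mk]
  unfold hP
  rw [H99.finrank_Pt ℚ a θ d m, Finset.sum_filter, H99.TT, Finset.sum_sigma, map_sum]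
  refine Finset.sum_congr rfl fun p hp => ?_
  rw [Finset.sum_filter, map_sum]
  refine Finset.sum_congr rfl fun p' hp' => ?_
  rw [HasAntidiagonal.mem_antidiagonal] at hp hp'
  have hd : p.1 + (p'.1 + p'.2) = d := by rw [hp', hp]
  by_cases hw : Theta.wt θ p'.1 = 0
  · rw [if_pos hw, if_pos hw, PowerSeries.coeff_X_pow_mul']
    by_cases hC : arD a p.1 p'.1 + arD a p.1 p'.2 + arD a p'.1 p'.2 ≤ m
    · rw [if_pos hC, if_pos hC]
      have h1 := H99.hd_std ℚ a θ hd
        (m - (arD a p.1 p'.1 + arD a p.1 p'.2 + arD a p'.1 p'.2))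
      have h2 := HN4.hd_sum3 (k := ℚ) (Sigma.fst : Pt p.1 → Fin n) (Sigma.fst : Pt p'.1 → Fin n)
        (Sigma.fst : Pt p'.2 → Fin n) (HN4.homI_Jp ℚ (aP a p.1) (θP θ p.1) univ)
        (HN4.homI_J0 ℚ (aP a p'.1) (θP θ p'.1) univ)
        (HN4.homI_Jm ℚ (aP a p'.2) (θP θ p'.2) univ)
        (m - (arD a p.1 p'.1 + arD a p.1 p'.2 + arD a p'.1 p'.2))
      have h3 : HN.hd ℚ (HN.cE (Sigma.fst : Pt d → Fin n) (H99.tau ⟨p, p'⟩))
          (HN.II ℚ (aP a d) (θP θ d) (H99.tau ⟨p, p'⟩))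
          (m - (arD a p.1 p'.1 + arD a p.1 p'.2 + arD a p'.1 p'.2)) = _ := h1.trans h2
      refine h3.trans ?_
      rw [mul_assoc, PowerSeries.coeff_mul]
      refine Finset.sum_congr rfl fun q _ => ?_
      rw [PowerSeries.coeff_mul, PowerSeries.coeff_mk, Finset.mul_sum]
      refine Finset.sum_congr rfl fun q' _ => ?_
      rw [PowerSeries.coeff_mk, PowerSeries.coeff_mk]
      rfl
    · rw [if_neg hC, if_neg hC]
  · rw [if_neg hw, if_neg hw]
    simp

end

end Vale.Agent.P066.Lab
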